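import Vale.Agent.P004X.P004H.H404.ModW
import Vale.Agent.P004X.P004.R2.H880.Good

/-!
# P004X: the modules of the rank `0`-or-`2` theorem
-/

open Real MeasureTheory Set

namespace P004H.Two

open P004G P004E
open P004E.Two (StFirst2)

/-- the modules F, W, M, S -/
theorem modules2 [Crv] (hTF : StTF) (hM : StMert) (hN0 : StN0) (hN1 : StN1w) (hH : StHlam) :
    StFirst2 ∧ StWin ∧ StMr ∧ StBlk ∧ StStrip := by
  obtain ⟨-, h2, h3, h4, h5⟩ := modulesW hTF hM hN0 hN1 hH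
  exact ⟨P004E.Two.pfFirst2_of (P004E.Two.pfMainVal2 hM)
      (fun N D hN h2 σ hσ ε κ hε hε1 hκ => P004E.Two.swap N D hN h2 hσ hε hε1 hκ) h2,
    h2, h3, h4, h5⟩

end P004H.Two
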