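import Vale.Agent.P004X.P004G.All
import Vale.Agent.P004X.P004G.H175.Z1
import Vale.Agent.P004X.P004G.H175.Z2
import Vale.Agent.P004X.P004.R2.H428.Mollx
import Vale.Agent.P004X.P004.R2.H663.R3x
import Vale.Agent.P004X.P004.R2.H880.R4x
import Vale.Agent.P004X.P004.R2.H880.Polyx
import Vale.Agent.P004X.P004.R2.H925.Blockx
import Vale.Agent.P004X.P004.R2.H496.Momx

/-!
# P004: exponentially small tails, assembly of the modules
-/

namespace P004G

section

variable [Crv]

theorem big2 : H293.H618.StBig2 := by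
  refine ⟨Real.exp H293.X663.AK, H293.X663.AK, Real.one_le_exp (by positivity), ?_⟩
  intro L K z hL hK _ hz
  exact H293.X663.EE_Big2 pfCoef hL hK hz

theorem mollx (hFull : StFull) : StMollx :=
  have hF : P004.StFour := P004.pfFour
  H428.pfMollx pfCoef P004.pfDiv pfTw0 pfTw1 (tw2 hFull) (pfPass pfCoef) (pfPassN pfCoef)
    (pfLim pfCoef) (pfLN pfCoef) (H293.H618.pfR2x pfCoef big2) (H293.X663.pfR3x pfCoef)
    (H293.R4X.pfR4x pfCoef) H628.PX.pfPolyx
    (P004.Moll.repA hF) (P004.Moll.repB hF) (P004.Moll.repC hF)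

theorem blockx (hF : StFold) (hV : StVan2) : StBlockx :=
  pfBlockx (full hF) hV pfWf (mollx (full hF))

end

theorem mainx : ∀ [Crv], StTF → StMomx := fun h => pfMomx (blockx (pfZ1 h) (pfZ2 h))

end P004G
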